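import Vale.Agent.P242X.Vol
import Vale.Agent.P233.H719.RegCh4
import Vale.Agent.P242X.P233.H719.RegCh5
import Vale.Agent.P233.H719.RegCh7
import Vale.Agent.P242.H124.Contr

/-!
# Charts at regular points, part 8: assembly
-/

set_option linter.all false

open Filter Topology Set Metric MeasureTheory
open scoped ENNReal NNReal MeasureTheory

universe u

namespace Vale.Agent.P233.RegCh

open Vale.Agent.P242.H373 Vale.Agent.P242.H719

/-- a bi-Lipschitz map with open image is a chart -/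
theorem biLipChart_of {X : Type u} [MetricSpace X] {n : ℕ} {L : ℝ} (hL : 0 < L) {U : Set X}
    (F : X → EuclideanSpace ℝ (Fin n)) (hF : ∀ x ∈ U, ∀ z ∈ U, L⁻¹ * dist x z ≤ dist (F x) (F z) ∧
      dist (F x) (F z) ≤ L * dist x z) (ho : IsOpen (F '' U)) : BiLipChart n L U := by
  have hinj : InjOn F U := fun x hx z hz h => by
    have h1 := (hF x hx z hz).1
    rw [h, dist_self] at h1
    have : 0 < L⁻¹ := inv_pos.2 hL
    exact dist_le_zero.1 (by nlinarith [dist_nonneg (x := x) (y := z)])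
  let G : U ≃ (F '' U : Set _) := Equiv.Set.imageOfInjOn F U hinj
  have hG : ∀ x : U, ((G x : F '' U) : EuclideanSpace ℝ (Fin n)) = F x := fun x => rfl
  have hd : ∀ x z : U, dist (G x) (G z) = dist (F x) (F z) := fun x z => rfl
  have c1 : Continuous G := by
    refine (LipschitzWith.of_dist_le_mul (K := ⟨L, hL.le⟩) fun x z => ?_).continuous
    rw [hd]
    exact (hF x x.2 z z.2).2
  have c2 : Continuous G.symm := by
    refine (LipschitzWith.of_dist_le_mul (K := ⟨L, hL.le⟩) fun v w => ?_).continuous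
    have h1 := (hF _ (G.symm v).2 _ (G.symm w).2).1
    rw [← hd, G.apply_symm_apply, G.apply_symm_apply, inv_mul_le_iff₀ hL] at h1
    exact h1
  exact ⟨F '' U, ⟨G, c1, c2⟩, ho, fun x z => hF x x.2 z z.2⟩

theorem biLipChart_mono {X : Type u} [MetricSpace X] {n : ℕ} {L L' : ℝ} (hL : 0 < L) (h : L ≤ L')
    {U : Set X} (hU : BiLipChart n L U) : BiLipChart n L' U := by
  obtain ⟨V, F, hV, hF⟩ := hU
  refine ⟨V, F, hV, fun x z => ⟨?_, ?_⟩⟩
  · refine le_trans (mul_le_mul_of_nonneg_right ?_ dist_nonneg) (hF x z).1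
    exact inv_anti₀ hL h
  · exact (hF x z).2.trans (mul_le_mul_of_nonneg_right h dist_nonneg)

/-- covering numbers at small scale -/
theorem cover_small {X : Type u} [MetricSpace X] [CompleteSpace X] [SecondCountableTopology X]
    [MeasurableSpace X] [BorelSpace X] {m : Measure X} {K : ℝ} {n : ℕ} (hn : 2 ≤ n)
    (hpos : m.IsOpenPosMeasure) (hfin : ∀ (x : X) (r : ℝ), m (ball x r) < ∞)
    (hK : P233Z.IsCDb K n m) (p : X) (R ε : ℝ) (hR : 0 < R) (hε : 0 < ε) :
    ∃ (N : ℕ) (s₀ : ℝ), 0 < s₀ ∧ ∀ s : ℝ, 0 < s → s < s₀ →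
      ∃ T : Finset X, T.card ≤ N ∧ ball p (s * R) ⊆ ⋃ y ∈ T, ball y (s * ε) := by
  have hn1 : (1 : ℝ) < n := by
    have : (2 : ℝ) ≤ n := by exact_mod_cast hn
    linarith
  have hpos' : ∀ (x : X) (r : ℝ), 0 < r → 0 < m (ball x r) := fun x r hr =>
    measure_ball_pos m x hr
  obtain ⟨R₀, hR₀, hC⟩ := P242X.contr_of_bmi (Q := 1 / 2) hfin hpos' (P242X.bmi hn hfin hK) hn1
    (by norm_num) (by norm_num)
  set δ := min ε R with hδ
  have hδ0 : 0 < δ := lt_min hε hR
  refine ⟨⌈(8 * R / δ) ^ (n : ℝ) / (1 / 2) ^ 2⌉₊, R₀ / (2 * R), by positivity, fun s hs hs0 => ?_⟩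
  rw [lt_div_iff₀ (by positivity)] at hs0
  obtain ⟨T, hT1, hT2⟩ := P242.exists_net hC hfin hpos' (by norm_num) (by norm_num) p
    (r := s * R) (s := s * δ) (by positivity) (by linarith) (by positivity)
    (mul_le_mul_of_nonneg_left (min_le_right _ _) hs.le)
  refine ⟨T, ?_, hT2.trans ?_⟩
  · have e : 8 * (s * R) / (s * δ) = 8 * R / δ := by
      field_simp
    rw [e] at hT1
    have := hT1.trans (Nat.le_ceil _)
    exact_mod_cast this
  · refine iUnion₂_mono fun y _ => ball_subset_ball ?_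
    exact mul_le_mul_of_nonneg_left (min_le_left _ _) hs.le

end Vale.Agent.P233.RegCh
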